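import Vale.Agent.P018.H867R.Sum
import Vale.Agent.P018.H867P.Fin

/-! # P018, H867R: `k ≥ d/4 + (log d)^2/8 + 4` is admissible. -/

namespace Vale.Agent.P018.H867R

open Finset Polynomial Vale.Agent.P018.K Vale.Agent.P018.K2 Vale.Agent.P018.K3

theorem log_sq_le (d : ℝ) (hd : 1 ≤ d) : Real.log d ^ 2 ≤ d := by
  have h0 : 0 < d := by linarith
  obtain ⟨s, hs⟩ : ∃ s : ℝ, s = d ^ (1 / 4 : ℝ) := ⟨_, rfl⟩
  have hs0 : 0 < s := by rw [hs]; positivity
  have hs1 : 1 ≤ s := by rw [hs]; exact Real.one_le_rpow hd (by norm_num)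
  have hs4 : s ^ 4 = d := by
    rw [hs, ← Real.rpow_natCast, ← Real.rpow_mul h0.le]
    norm_num
  have h1 : Real.log d = 4 * Real.log s := by
    rw [← hs4, Real.log_pow]
    norm_num
  have h2 : Real.log s ≤ s - 1 := Real.log_le_sub_one_of_pos hs0
  have h3 : 0 ≤ Real.log d := Real.log_nonneg hd
  have h4 : Real.log d ≤ s ^ 2 := by
    rw [h1]
    nlinarith [sq_nonneg (s - 2)]
  calc Real.log d ^ 2 ≤ (s ^ 2) ^ 2 := pow_le_pow_left₀ h3 h4 2
    _ = d := by rw [← hs4]; ring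

theorem adm2_eighth (d k : ℕ) (hd : 128 ≤ d) (hkd : k ≤ d)
    (h : (d : ℝ) / 4 + Real.log d ^ 2 / 8 + 4 ≤ k) (a : ℝ)
    (ha : 1 ≤ a) (ha2 : a ≤ (d : ℝ) / k) : Adm2 d k a := by
  have hd' : (128 : ℝ) ≤ d := by exact_mod_cast hd
  have hd0 : (0 : ℝ) < d := by linarith only [hd']
  have hkq : (d : ℝ) / 4 ≤ k := by linarith only [h, sq_nonneg (Real.log (d : ℝ))]
  have hk0 : (0 : ℝ) < k := by linarith only [hkq, hd']
  have hk1 : 1 ≤ k := by exact_mod_cast (Nat.one_le_iff_ne_zero.2 (by rintro rfl; simp at hk0))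
  have ha0 : 0 < a := by linarith only [ha]
  obtain ⟨w, hw⟩ : ∃ w : ℝ, w = a / d := ⟨_, rfl⟩
  have hw0 : 0 < w := by rw [hw]; positivity
  have hwk1 : w * k ≤ 1 := by
    rw [hw, div_mul_eq_mul_div, div_le_one hd0]
    rwa [le_div_iff₀ hk0] at ha2
  have hwk4 : 1 / 4 ≤ w * k := by
    rw [hw, div_mul_eq_mul_div, le_div_iff₀ hd0]
    linarith only [mul_nonneg (sub_nonneg.2 ha) (le_of_lt (sub_pos.2 hd0)), mul_nonneg (sub_nonneg.2 hkq) (le_of_lt (sub_pos.2 ha0))]
  obtain ⟨δ, hδ⟩ : ∃ δ : ℝ, δ = 1 / (d : ℝ) := ⟨_, rfl⟩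
  have hδ0 : 0 < δ := by rw [hδ]; positivity
  obtain ⟨t, ht⟩ : ∃ t : ℕ → ℝ, t = fun r => if r < 3 then w else (1 + δ) * u r / k := ⟨_, rfl⟩
  have htpos : ∀ r, 0 < t r := by
    intro r
    rw [ht]
    simp only
    split
    · exact hw0
    · have := u_pos r
      positivity
  refine ⟨rmin w t, by rw [rmin, hw], fun r => min_le_left _ _,
    rmin_pos w t hw0 htpos _, ?_, ?_⟩
  · -- the criterion
    intro r hr1 hr2 hlt
    obtain ⟨s, rfl⟩ : ∃ s, r = s + 1 := ⟨r - 1, by omega⟩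
    rw [Nat.add_sub_cancel] at hlt
    have hEq : rmin w t (s + 1) = t (s + 1) := by
      rw [rmin]
      refine min_eq_right ?_
      by_contra hcon
      push Not at hcon
      rw [rmin, min_eq_left hcon.le] at hlt
      exact lt_irrefl _ hlt
    have hr4 : 3 ≤ s + 1 := by
      by_contra hcon
      have h1 : t (s + 1) = w := by
        rw [ht]
        simp only
        rw [if_pos (by omega)]
      rw [hEq, h1] at hlt
      exact absurd (rmin_le_w w t s) (not_le.2 hlt)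
    generalize s + 1 = r at hEq hr4 hr1 hr2
    rw [hEq]
    have htr : t r = (1 + δ) * u r / k := by
      rw [ht]
      simp only
      rw [if_neg (by omega)]
    refine crit_zero d k r (by omega) hk1 hr1 a (t r) ha0 (htpos r) ?_
    have hcb := cb_pos r
    have hcb' : (((2 * r).choose (r - 1) : ℕ) : ℝ) = cb r := rfl
    rw [← hw, htr, div_pow, mul_pow, u_pow r hr1, hcb']
    have h3 : 1 < (1 + δ) ^ r := one_lt_pow₀ (by linarith only [hδ0]) (by omega)
    have e1 : (1 + δ) ^ r * (4 / cb r) / (k : ℝ) ^ r * w * (k : ℝ) ^ (r + 1) * cb r =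
        (1 + δ) ^ r * (4 * (w * k)) := by
      rw [pow_succ (k : ℝ)]
      field_simp
    rw [e1]
    calc (1 : ℝ) < (1 + δ) ^ r := h3
      _ = (1 + δ) ^ r * 1 := (mul_one _).symm
      _ ≤ (1 + δ) ^ r * (4 * (w * k)) :=
        mul_le_mul_of_nonneg_left (by linarith only [hwk4]) (by linarith only [h3])
  · -- the sum
    have h1 : ∑ r ∈ range d, rmin w t r ≤ 3 * w + ∑ r ∈ Ico 3 d, t r := by
      rw [Finset.range_eq_Ico, ← Finset.sum_Ico_consecutive (rmin w t) (show 0 ≤ 3 by norm_num)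
        (show 3 ≤ d by omega)]
      refine add_le_add ?_ ?_
      · have := Finset.sum_le_card_nsmul (Ico 0 3) (rmin w t) w fun r _ => rmin_le_w w t r
        simpa using this
      · refine sum_le_sum fun r hr => ?_
        rw [mem_Ico] at hr
        obtain ⟨s, rfl⟩ : ∃ s, r = s + 1 := ⟨r - 1, by omega⟩
        exact min_le_right _ _
    refine lt_of_le_of_lt h1 ?_
    have h2 : ∑ r ∈ Ico 3 d, t r = (1 + δ) * (∑ r ∈ Ico 3 d, u r) / k := by
      rw [mul_sum, sum_div]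
      refine sum_congr rfl fun r hr => ?_
      rw [mem_Ico] at hr
      rw [ht]
      simp only
      rw [if_neg (by omega)]
    rw [h2]
    have h3 := sum_u d hd
    have hlq := log_sq_le d (by linarith only [hd'])
    obtain ⟨Q, hQ⟩ : ∃ Q : ℝ, Q = Real.log (d : ℝ) ^ 2 := ⟨_, rfl⟩
    rw [← hQ] at h h3 hlq
    have h4 : (1 + δ) * (∑ r ∈ Ico 3 d, u r) ≤ (1 + δ) * (d / 4 + Q / 8 + 2 / 5) :=
      mul_le_mul_of_nonneg_left h3 (by linarith only [hδ0])
    have h5 : δ * (d / 4 + Q / 8 + 2 / 5) ≤ 0.4 := by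
      rw [hδ, one_div_mul_eq_div, div_le_iff₀ hd0]
      linarith only [hlq, hd']
    have h6 : 3 * (w * k) + (1 + δ) * (∑ r ∈ Ico 3 d, u r) < k := by
      linarith only [h4, h5, hwk1, h]
    rw [← sub_pos]
    have e5 : 1 - (3 * w + (1 + δ) * (∑ r ∈ Ico 3 d, u r) / k) =
        (k - (3 * (w * k) + (1 + δ) * (∑ r ∈ Ico 3 d, u r))) / k := by
      field_simp
    rw [e5]
    exact div_pos (by linarith only [h6]) hk0

end Vale.Agent.P018.H867R
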