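import Vale.Agent.P018.H867.Defs

/-! # P018, H867R: the wider range, and arbitrary polynomials. -/

namespace Vale.Agent.P018.H867R

open Polynomial

/-- the pairs (degree, exponent) that are treated. -/
def InRangeW (d k : ℕ) : Prop :=
  d ≤ 4 ∨ d < 2 * k ∨ 2 * d + 12 ≤ 7 * k ∨ (d : ℝ) / 4 + Real.log d ^ 2 / 8 + 4 ≤ k

/-- `f ≠ 0`, and whenever `g ^ e` divides `f` over `ℚ`, `g` irreducible, `e ≥ 1`, then `e < k` and
`(deg g, ⌈k / e⌉)` is in the range; multiple factors are allowed. -/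
def GoodW (f : ℤ[X]) (k : ℕ) : Prop :=
  f ≠ 0 ∧ ∀ (g : ℚ[X]) (e : ℕ), Irreducible g → 1 ≤ e → g ^ e ∣ f.map (Int.castRingHom ℚ) →
    e < k ∧ InRangeW g.natDegree ⌈(k : ℚ) / e⌉₊

end Vale.Agent.P018.H867R
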