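import Vale.Agent.P018.H867R.Mult

/-! # P018, H867R: the main theorems for one and for several polynomials. -/

namespace Vale.Agent.P018.H867R

open Polynomial Filter Topology Vale.Agent.P018.H867 Vale.Agent.P018.H867P Asymptotics

/-- the density of a union of at most `D` residue classes modulo `p ^ j`, `j ≥ 2`. -/
theorem rB_bound {B : ℕ → ℕ → Prop} {K p D : ℕ} (hp : p.Prime)
    (hM : ∃ M : Finset (ℕ × ℕ), M.card ≤ D ∧ (∀ z ∈ M, 2 ≤ z.1 ∧ z.1 ≤ K) ∧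
      ∀ n, B p n ↔ ∃ z ∈ M, n ≡ z.2 [MOD p ^ z.1]) :
    (rB B K p : ℝ) / (p : ℝ) ^ K ≤ D / (p : ℝ) ^ 2 := by
  obtain ⟨M, h1, h2, h3⟩ := hM
  obtain ⟨M1, h4, h5, h6⟩ := H867S.exists_disjoint_balls _ M rfl h3
  rw [H867S.rB_balls hp M1 (fun z hz => (h2 z (h4 hz)).2) h5 h6]
  have hp1 : (1 : ℝ) ≤ p := by exact_mod_cast hp.one_lt.le
  have h7 : ∀ z ∈ M1, ((p : ℝ) ^ z.1)⁻¹ ≤ ((p : ℝ) ^ 2)⁻¹ := by
    intro z hz
    have h8 : (p : ℝ) ^ 2 ≤ (p : ℝ) ^ z.1 := pow_le_pow_right₀ hp1 (h2 z (h4 hz)).1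
    have h9 : (0 : ℝ) < (p : ℝ) ^ 2 := by positivity
    exact inv_anti₀ h9 h8
  refine (Finset.sum_le_sum h7).trans ?_
  rw [Finset.sum_const, nsmul_eq_mul, ← div_eq_mul_inv]
  have h10 : (M1.card : ℝ) ≤ D := by exact_mod_cast (Finset.card_le_card h4).trans h1
  gcongr

/-- the abstract theorem. -/
theorem abs_main {B : ℕ → ℕ → Prop} {K : ℕ} (hK : 2 ≤ K) {D : ℕ} {C e d : ℝ} (hC : 0 ≤ C)
    (he : 0 < e) (he1 : e < 1) (hd : 0 < d)
    (hM : ∀ p : ℕ, p.Prime → ∃ M : Finset (ℕ × ℕ), M.card ≤ D ∧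
      (∀ z ∈ M, 2 ≤ z.1 ∧ z.1 ≤ K) ∧ ∀ n, B p n ↔ ∃ z ∈ M, n ≡ z.2 [MOD p ^ z.1])
    (hlt : ∀ p : ℕ, p.Prime → rB B K p < p ^ K)
    (htail : ∀ X : ℕ, 1 ≤ X → (H867S.tB2 B e X : ℝ) ≤ C * (X : ℝ) ^ (1 - d)) :
    Multipliable (fun p : Nat.Primes => 1 - (rB B K p : ℝ) / ((p : ℕ) : ℝ) ^ K) ∧
    0 < dB B K ∧
    ∃ d' C' : ℝ, 0 < d' ∧ ∀ X : ℕ, 1 ≤ X →
      |(cB B X : ℝ) - dB B K * X| ≤ C' * (X : ℝ) ^ (1 - d') := by
  obtain ⟨h1, h2, -⟩ := dB_spec (B := B) (K := K) (D := (D : ℝ)) (Nat.cast_nonneg D) hlt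
    (fun p hp => rB_bound hp (hM p hp))
  exact ⟨h1, h2, H867S.abs_sieve_balls hK hC he he1 hd hM hlt htail⟩

/-- one polynomial. -/
theorem main_oneW (f : ℤ[X]) (k : ℕ) (hk : 2 ≤ k) (hf : GoodW f k)
    (hloc : ∀ p : ℕ, p.Prime → rho f (p ^ k) < p ^ k) :
    Multipliable (fun p : Nat.Primes => 1 - (rho f ((p : ℕ) ^ k) : ℝ) / ((p : ℕ) : ℝ) ^ k) ∧
    0 < density f k ∧
    ∃ δ C : ℝ, 0 < δ ∧ ∀ X : ℕ, 1 ≤ X →
      |(countPF f k X : ℝ) - density f k * X| ≤ C * (X : ℝ) ^ (1 - δ) := by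
  classical
  set B : ℕ → ℕ → Prop := fun p n => (p : ℤ) ^ k ∣ f.eval (n : ℤ) with hB
  obtain ⟨⟨ε, δ, C, hε, hε1, hδ, hC, hC'⟩, D, hD⟩ := goodW_ind k hk f.natDegree f le_rfl hf
  have hrB : ∀ p : ℕ, rB B k p = rho f (p ^ k) := by
    intro p
    unfold rB rho
    refine card_filter_eq _ _ _ fun n => ?_
    simp only [hB]
    push_cast
    rfl
  have hdB : dB B k = density f k := by
    unfold dB density
    simp only [hrB]
  have hcB : ∀ X : ℕ, cB B X = countPF f k X := fun X => by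
    unfold cB countPF
    exact card_filter_eq _ _ _ fun n => Iff.rfl
  have htB : ∀ X : ℕ, H867S.tB2 B ε X = tail2 f k ε X := fun X => by
    unfold H867S.tB2 tail2
    exact card_filter_eq _ _ _ fun n => Iff.rfl
  obtain ⟨h1, h2, δ', C', hδ', h3⟩ := abs_main (B := B) hk hC hε hε1 hδ hD
    (fun p hp => by rw [hrB]; exact hloc p hp) (fun X hX => by rw [htB]; exact hC' X hX)
  rw [hdB] at h2
  simp only [hrB] at h1
  refine ⟨h1, h2, δ', C', hδ', fun X hX => ?_⟩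
  rw [← hcB, ← hdB]
  exact h3 X hX

/-- the tail for several polynomials. -/
theorem tail_familyW {m : ℕ} (hm : 0 < m) (f : Fin m → ℤ[X]) (k : Fin m → ℕ)
    (hf : ∀ i, TailPow (f i) (k i)) :
    ∃ ε δ C : ℝ, 0 < ε ∧ ε < 1 ∧ 0 < δ ∧ 0 ≤ C ∧ ∀ X : ℕ, 1 ≤ X →
      (H867S.tB2 (fun p n => ∃ i, (p : ℤ) ^ k i ∣ (f i).eval (n : ℤ)) ε X : ℝ) ≤
        C * (X : ℝ) ^ (1 - δ) := by
  classical
  have hne : (Finset.univ : Finset (Fin m)).Nonempty := ⟨⟨0, hm⟩, Finset.mem_univ _⟩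
  choose ε δ C hε hε1 hδ hC h using hf
  set ε' : ℝ := Finset.univ.inf' hne ε with hε'
  set δ' : ℝ := Finset.univ.inf' hne δ with hδ'
  have h1 : ∀ i, ε' ≤ ε i := fun i => Finset.inf'_le _ (Finset.mem_univ i)
  have h2 : ∀ i, δ' ≤ δ i := fun i => Finset.inf'_le _ (Finset.mem_univ i)
  refine ⟨ε', δ', ∑ i, C i, ?_, (h1 ⟨0, hm⟩).trans_lt (hε1 _), ?_,
    Finset.sum_nonneg fun i _ => hC i, fun X hX => ?_⟩
  · rw [hε', Finset.lt_inf'_iff]
    exact fun i _ => hε i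
  · rw [hδ', Finset.lt_inf'_iff]
    exact fun i _ => hδ i
  have hXr : (1 : ℝ) ≤ X := by exact_mod_cast hX
  have h3 : H867S.tB2 (fun p n => ∃ i, (p : ℤ) ^ k i ∣ (f i).eval (n : ℤ)) ε' X ≤
      ∑ i, tail2 (f i) (k i) ε' X := by
    unfold H867S.tB2 tail2
    exact card_filter_biUnion _ _ (fun (i : Fin m) (n : ℕ) => ∃ p : ℕ, p.Prime ∧
        (X : ℝ) ^ (1 - ε') < p ∧ (p : ℤ) ^ k i ∣ (f i).eval (n : ℤ))
      fun n ⟨p, hp, hXp, i, hi⟩ => ⟨i, p, hp, hXp, hi⟩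
  calc (H867S.tB2 (fun p n => ∃ i, (p : ℤ) ^ k i ∣ (f i).eval (n : ℤ)) ε' X : ℝ)
      ≤ ((∑ i, tail2 (f i) (k i) ε' X : ℕ) : ℝ) := by exact_mod_cast h3
    _ = ∑ i, (tail2 (f i) (k i) ε' X : ℝ) := by push_cast; rfl
    _ ≤ ∑ i, C i * (X : ℝ) ^ (1 - δ') := by
        refine Finset.sum_le_sum fun i _ => ?_
        calc (tail2 (f i) (k i) ε' X : ℝ) ≤ (tail2 (f i) (k i) (ε i) X : ℝ) := by
              exact_mod_cast tail2_mono (f i) (k i) (h1 i) hX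
          _ ≤ C i * (X : ℝ) ^ (1 - δ i) := h i X hX
          _ ≤ C i * (X : ℝ) ^ (1 - δ') := mul_le_mul_of_nonneg_left
              (Real.rpow_le_rpow_of_exponent_le hXr (by linarith [h2 i])) (hC i)
    _ = _ := by rw [Finset.sum_mul]

/-- the residue classes for several polynomials. -/
theorem balls_familyW {m : ℕ} (f : Fin m → ℤ[X]) (k : Fin m → ℕ)
    (hf : ∀ i, BallsP (f i) (k i)) :
    ∃ D : ℕ, ∀ p : ℕ, p.Prime → ∃ M : Finset (ℕ × ℕ), M.card ≤ D ∧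
      (∀ z ∈ M, 2 ≤ z.1 ∧ z.1 ≤ topExp k) ∧
      ∀ n : ℕ, (∃ i, (p : ℤ) ^ k i ∣ (f i).eval (n : ℤ)) ↔ ∃ z ∈ M, n ≡ z.2 [MOD p ^ z.1] := by
  classical
  choose D hD using hf
  refine ⟨∑ i, D i, fun p hp => ?_⟩
  choose M h1 h2 h3 using fun i => hD i p hp
  refine ⟨Finset.univ.biUnion M, Finset.card_biUnion_le.trans (Finset.sum_le_sum fun i _ => h1 i),
    ?_, fun n => ?_⟩
  · intro z hz
    obtain ⟨i, -, hz⟩ := Finset.mem_biUnion.1 hz
    exact ⟨(h2 i z hz).1, (h2 i z hz).2.trans (Finset.le_sup (f := k) (Finset.mem_univ i))⟩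
  · constructor
    · rintro ⟨i, hi⟩
      obtain ⟨z, hz, hn⟩ := (h3 i n).1 hi
      exact ⟨z, Finset.mem_biUnion.2 ⟨i, Finset.mem_univ i, hz⟩, hn⟩
    · rintro ⟨z, hz, hn⟩
      obtain ⟨i, -, hz⟩ := Finset.mem_biUnion.1 hz
      exact ⟨i, (h3 i n).2 ⟨z, hz, hn⟩⟩

/-- several polynomials. -/
theorem main_familyW {m : ℕ} (hm : 0 < m) (f : Fin m → ℤ[X]) (k : Fin m → ℕ)
    (hk : ∀ i, 2 ≤ k i) (hf : ∀ i, GoodW (f i) (k i))
    (hloc : ∀ p : ℕ, p.Prime → rhoS f k p < p ^ topExp k) :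
    Multipliable (fun p : Nat.Primes => 1 - (rhoS f k p : ℝ) / ((p : ℕ) : ℝ) ^ topExp k) ∧
    0 < densityS f k ∧
    ∃ δ C : ℝ, 0 < δ ∧ ∀ X : ℕ, 1 ≤ X →
      |(countS f k X : ℝ) - densityS f k * X| ≤ C * (X : ℝ) ^ (1 - δ) := by
  classical
  set B : ℕ → ℕ → Prop := fun p n => ∃ i, (p : ℤ) ^ k i ∣ (f i).eval (n : ℤ) with hB
  have hle : ∀ i, k i ≤ topExp k := fun i => Finset.le_sup (f := k) (Finset.mem_univ i)
  have hK : 2 ≤ topExp k := (hk ⟨0, hm⟩).trans (hle _)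
  have hind : ∀ i, TailPow (f i) (k i) ∧ BallsP (f i) (k i) := fun i =>
    goodW_ind (k i) (hk i) (f i).natDegree (f i) le_rfl (hf i)
  obtain ⟨ε, δ, C, hε, hε1, hδ, hC, htail⟩ := tail_familyW hm f k fun i => (hind i).1
  obtain ⟨D, hD⟩ := balls_familyW f k fun i => (hind i).2
  have hrB : ∀ p : ℕ, rB B (topExp k) p = rhoS f k p := fun p => by
    unfold rB rhoS
    exact card_filter_eq _ _ _ fun n => Iff.rfl
  have hdB : dB B (topExp k) = densityS f k := by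
    unfold dB densityS
    simp only [hrB]
  have hcB : ∀ X : ℕ, cB B X = countS f k X := by
    intro X
    unfold cB countS
    refine card_filter_eq _ _ _ fun n => ?_
    simp only [hB, PowerFree, not_exists]
    exact ⟨fun h i p hp => h p hp i, fun h p hp i => h i p hp⟩
  obtain ⟨h1, h2, δ', C', hδ', h3⟩ := abs_main (B := B) hK hC hε hε1 hδ hD
    (fun p hp => by rw [hrB]; exact hloc p hp) htail
  rw [hdB] at h2
  simp only [hrB] at h1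
  refine ⟨h1, h2, δ', C', hδ', fun X hX => ?_⟩
  rw [← hcB, ← hdB]
  exact h3 X hX

/-- a power-saving error term is `o(X)`. -/
theorem isLittleO_of_pow {u : ℕ → ℝ} (h : ∃ δ C : ℝ, 0 < δ ∧ ∀ X : ℕ, 1 ≤ X →
    |u X| ≤ C * (X : ℝ) ^ (1 - δ)) : u =o[atTop] (fun X : ℕ => (X : ℝ)) := by
  obtain ⟨δ, C, hδ, h⟩ := h
  have h1 : u =O[atTop] (fun X : ℕ => (X : ℝ) ^ (1 - δ)) := by
    refine IsBigO.of_bound C ?_
    filter_upwards [eventually_ge_atTop 1] with X hX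
    rw [Real.norm_eq_abs, Real.norm_eq_abs, abs_of_nonneg (by positivity : 0 ≤ (X : ℝ) ^ (1 - δ))]
    exact h X hX
  refine h1.trans_isLittleO ?_
  refine isLittleO_of_tendsto' ?_ ?_
  · filter_upwards [eventually_ge_atTop 1] with X hX h
    have : (1 : ℝ) ≤ X := by exact_mod_cast hX
    linarith
  · have h2 : Tendsto (fun X : ℕ => (X : ℝ) ^ (-δ)) atTop (𝓝 0) :=
      (tendsto_rpow_neg_atTop hδ).comp tendsto_natCast_atTop_atTop
    refine h2.congr' ?_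
    filter_upwards [eventually_ge_atTop 1] with X hX
    have h3 : (0 : ℝ) < X := by exact_mod_cast hX
    rw [show -δ = (1 - δ) - 1 by ring, Real.rpow_sub h3, Real.rpow_one]

/-- irreducible polynomials. -/
theorem goodW_of_irr (f : ℤ[X]) (k : ℕ) (hk : 2 ≤ k)
    (hirr : Irreducible (f.map (Int.castRingHom ℚ))) (hr : InRangeW f.natDegree k) :
    GoodW f k := by
  have hf0 : f ≠ 0 := by
    rintro rfl
    simp at hirr
  refine ⟨hf0, fun g e hg he hgd => ?_⟩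
  have hgd1 : g ∣ f.map (Int.castRingHom ℚ) := (dvd_pow_self g (by omega)).trans hgd
  have h1 : Associated g (f.map (Int.castRingHom ℚ)) := hg.associated_of_dvd hirr hgd1
  have h2 : g.natDegree = (f.map (Int.castRingHom ℚ)).natDegree :=
    natDegree_eq_of_degree_eq (degree_eq_degree_of_associated h1)
  have he1 : e = 1 := by
    by_contra h
    have h3 : g ^ 2 ∣ f.map (Int.castRingHom ℚ) := (pow_dvd_pow g (by omega)).trans hgd
    have h4 := hirr.squarefree g (by rw [← sq]; exact h3)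
    exact hg.not_isUnit h4
  subst he1
  refine ⟨by omega, ?_⟩
  rw [h2, natDegree_map_eq_of_injective (RingHom.injective_int _)]
  simpa using hr

end Vale.Agent.P018.H867R
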