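import Vale.Agent.P018.H867R.Adm
import Vale.Agent.P018.H867R.Defs

/-! # P018, H867R: irreducible polynomials in the wider range. -/

namespace Vale.Agent.P018.H867R

open Polynomial Filter Topology Vale.Agent.P018.H867 Vale.Agent.P018.H867P

/-- the new pairs. -/
def NewPair (d k : ℕ) : Prop := 128 ≤ d ∧ (d : ℝ) / 4 + Real.log d ^ 2 / 8 + 4 ≤ k

theorem log_64 : Real.log 64 = 6 * Real.log 2 := by
  rw [show (64 : ℝ) = 2 ^ 6 by norm_num, Real.log_pow]
  norm_num

theorem small_eighth (d k : ℕ) (hd : d < 128) (h : (d : ℝ) / 4 + Real.log d ^ 2 / 8 + 4 ≤ k) :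
    2 * d + 12 ≤ 7 * k := by
  have hd' : (d : ℝ) ≤ 127 := by exact_mod_cast (by omega : d ≤ 127)
  have hl2 := Real.log_two_gt_d9
  have key : 2 * (d : ℝ) + 12 ≤ 7 * k := by
    rcases lt_or_ge d 64 with h1 | h1
    · have h2 : (d : ℝ) ≤ 64 := by exact_mod_cast h1.le
      linarith only [h, h2, sq_nonneg (Real.log (d : ℝ))]
    rcases lt_or_ge d 96 with h3 | h3
    · have h4 : (64 : ℝ) ≤ d := by exact_mod_cast h1
      have h5 : (d : ℝ) ≤ 96 := by exact_mod_cast h3.le
      have h6 : Real.log 64 ≤ Real.log d := Real.log_le_log (by norm_num) h4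
      have h7 : 4 ≤ Real.log (d : ℝ) := by linarith only [h6, log_64, hl2]
      have h8 : (4 : ℝ) ^ 2 ≤ Real.log (d : ℝ) ^ 2 := pow_le_pow_left₀ (by norm_num) h7 2
      norm_num at h8
      linarith only [h, h8, h5]
    · have h4 : (91 : ℝ) ≤ d := by exact_mod_cast (by omega : 91 ≤ d)
      have h5 : (2 : ℝ) ^ 13 ≤ (d : ℝ) ^ 2 := by
        calc (2 : ℝ) ^ 13 ≤ 91 ^ 2 := by norm_num
          _ ≤ (d : ℝ) ^ 2 := pow_le_pow_left₀ (by norm_num) h4 2
      have h6 : Real.log ((2 : ℝ) ^ 13) ≤ Real.log ((d : ℝ) ^ 2) :=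
        Real.log_le_log (by norm_num) h5
      rw [Real.log_pow, Real.log_pow] at h6
      push_cast at h6
      have h7 : 4.5 ≤ Real.log (d : ℝ) := by linarith only [h6, hl2]
      have h8 : (4.5 : ℝ) ^ 2 ≤ Real.log (d : ℝ) ^ 2 := pow_le_pow_left₀ (by norm_num) h7 2
      norm_num at h8
      linarith only [h, h8, hd']
  exact_mod_cast key

theorem inRangeW_cases (d k : ℕ) (h : InRangeW d k) : InRange d k ∨ NewPair d k := by
  rcases h with h | h | h | h
  · exact Or.inl (Or.inl h)
  · exact Or.inl (Or.inr (Or.inl h))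
  · exact Or.inl (Or.inr (Or.inr (Or.inl h)))
  · rcases lt_or_ge d 128 with h1 | h1
    · exact Or.inl (Or.inr (Or.inr (Or.inl (small_eighth d k h1 h))))
    · exact Or.inr ⟨h1, h⟩

theorem inRange_subset (d k : ℕ) (h : InRange d k) : InRangeW d k := by
  rcases h with h | h | h | h
  · exact Or.inl h
  · exact Or.inr (Or.inl h)
  · exact Or.inr (Or.inr (Or.inl h))
  · rcases lt_or_ge k 2 with hk | hk
    · -- then `d ≤ 4`
      left
      have h1 : (d : ℝ) / 4 ≤ 1 := by
        have h2 : (k : ℝ) ≤ 1 := by exact_mod_cast (by omega : k ≤ 1)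
        linarith only [h, h2, sq_nonneg (Real.log (d : ℝ))]
      have h3 : (d : ℝ) ≤ 4 := by linarith only [h1]
      exact_mod_cast h3
    rcases lt_or_ge d 64 with h1 | h1
    · rcases K3.small_log d k hk h1 h with h2 | h2
      · exact Or.inr (Or.inl h2)
      · exact Or.inr (Or.inr (Or.inl h2))
    · refine Or.inr (Or.inr (Or.inr ?_))
      have hl2 := Real.log_two_gt_d9
      have h4 : (64 : ℝ) ≤ d := by exact_mod_cast h1
      have h6 : Real.log 64 ≤ Real.log d := Real.log_le_log (by norm_num) h4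
      have h7 : 4 ≤ Real.log (d : ℝ) := by linarith only [h6, log_64, hl2]
      have h8 : (4 : ℝ) ^ 2 ≤ Real.log (d : ℝ) ^ 2 := pow_le_pow_left₀ (by norm_num) h7 2
      norm_num at h8
      linarith only [h, h8]

/-- the range is monotone in the exponent. -/
theorem inRangeW_mono {d k k' : ℕ} (hk : k ≤ k') (h : InRangeW d k) : InRangeW d k' := by
  rcases h with h | h | h | h
  · exact Or.inl h
  · exact Or.inr (Or.inl (by omega))
  · exact Or.inr (Or.inr (Or.inl (by omega)))
  · refine Or.inr (Or.inr (Or.inr (h.trans ?_)))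
    exact_mod_cast hk

/-- irreducible polynomials. -/
theorem tailPow_irrW (f : ℤ[X]) (hirr : Irreducible (f.map (Int.castRingHom ℚ))) (k : ℕ)
    (hk : 2 ≤ k) (hr : InRangeW f.natDegree k) : TailPow f k := by
  rcases inRangeW_cases _ _ hr with h | ⟨h1, h2⟩
  · exact tailPow_irr f hirr k hk h
  have hf0 : f ≠ 0 := by
    rintro rfl
    simp at hirr
  rcases lt_or_ge f.natDegree k with h | h
  · exact tailPow_gt f hf0 k h
  have hadm : ∀ a : ℝ, 1 ≤ a → a ≤ (f.natDegree : ℝ) / k → K2.Adm2 f.natDegree k a :=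
    fun a ha ha2 => adm2_eighth f.natDegree k h1 h h2 a ha ha2
  have hk0 : (0 : ℝ) < k := by exact_mod_cast (by omega : 0 < k)
  have hone : K2.Adm2 f.natDegree k 1 := by
    refine hadm 1 le_rfl ?_
    rw [le_div_iff₀ hk0, one_mul]
    exact_mod_cast h
  have hnear : NearOne f k := nearOne_of_adm f hirr k hk (by omega) hone
  rcases lt_or_ge k f.natDegree with h3 | h3
  · exact tailPow_of_hpp f hirr k hk (by omega) (hpp_of_hp f k
      (hp_of_fin f k hk h3 fun a ha ha2 => K2.fin_near2 f hirr k hk h3 a ha (hadm a ha ha2)) hnear)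
  · exact tailPow_of_hpp f hirr k hk (by omega) (hpp_of_near f k hk h3 hnear)

end Vale.Agent.P018.H867R
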