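import Vale.Agent.P018.H867R.Irr
import Vale.Agent.P018.H867S.Balls

/-! # P018, H867R: multiple factors. -/

namespace Vale.Agent.P018.H867R

open Polynomial Filter Topology Vale.Agent.P018.H867 Vale.Agent.P018.H867P

/-- for every prime the condition is a union of a bounded number of residue classes. -/
def BallsP (f : ℤ[X]) (k : ℕ) : Prop :=
  ∃ D : ℕ, ∀ p : ℕ, p.Prime → ∃ M : Finset (ℕ × ℕ), M.card ≤ D ∧
    (∀ z ∈ M, 2 ≤ z.1 ∧ z.1 ≤ k) ∧
    ∀ n : ℕ, (p : ℤ) ^ k ∣ f.eval (n : ℤ) ↔ ∃ z ∈ M, n ≡ z.2 [MOD p ^ z.1]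

/-- all residues modulo `p ^ k`. -/
theorem balls_all (f : ℤ[X]) (k p : ℕ) (hp : p.Prime) : ∃ M : Finset (ℕ × ℕ),
    M.card ≤ rho f (p ^ k) ∧ (∀ z ∈ M, z.1 = k) ∧
    ∀ n : ℕ, (p : ℤ) ^ k ∣ f.eval (n : ℤ) ↔ ∃ z ∈ M, n ≡ z.2 [MOD p ^ z.1] := by
  classical
  refine ⟨((Finset.range (p ^ k)).filter
    (fun a : ℕ => ((p ^ k : ℕ) : ℤ) ∣ f.eval (a : ℤ))).image (fun a => (k, a)), ?_, ?_, ?_⟩
  · refine Finset.card_image_le.trans (le_of_eq ?_)
    unfold rho
    exact card_filter_eq _ _ _ fun n => Iff.rfl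
  · intro z hz
    obtain ⟨a, -, rfl⟩ := Finset.mem_image.1 hz
    rfl
  · intro n
    constructor
    · intro hi
      refine ⟨(k, n % p ^ k), ?_, (Nat.mod_modEq n (p ^ k)).symm⟩
      refine Finset.mem_image.2 ⟨n % p ^ k, ?_, rfl⟩
      rw [Finset.mem_filter, Finset.mem_range]
      refine ⟨Nat.mod_lt _ (pow_pos hp.pos _), ?_⟩
      rw [sv_dvd_mod]
      push_cast
      exact hi
    · rintro ⟨z, hz, hn⟩
      obtain ⟨a, ha, rfl⟩ := Finset.mem_image.1 hz
      obtain ⟨ha1, ha2⟩ := Finset.mem_filter.1 ha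
      have h1 : ((p ^ k : ℕ) : ℤ) ∣ f.eval (n : ℤ) := by
        rw [← sv_dvd_mod f (p ^ k) n]
        have h2 : n % p ^ k = a % p ^ k := hn
        rw [h2, sv_dvd_mod]
        exact ha2
      push_cast at h1
      exact h1

theorem rho_le_self (f : ℤ[X]) (q : ℕ) : rho f q ≤ q := by
  unfold rho
  refine (Finset.card_filter_le _ _).trans ?_
  rw [Finset.card_range]

/-- only large primes matter. -/
theorem balls_of_large (f : ℤ[X]) (k : ℕ) (hk : 2 ≤ k) (T D : ℕ)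
    (h : ∀ p : ℕ, p.Prime → T < p → ∃ M : Finset (ℕ × ℕ), M.card ≤ D ∧
      (∀ z ∈ M, 2 ≤ z.1 ∧ z.1 ≤ k) ∧
      ∀ n : ℕ, (p : ℤ) ^ k ∣ f.eval (n : ℤ) ↔ ∃ z ∈ M, n ≡ z.2 [MOD p ^ z.1]) :
    BallsP f k := by
  refine ⟨D + T ^ k, fun p hp => ?_⟩
  rcases lt_or_ge T p with h1 | h1
  · obtain ⟨M, h2, h3, h4⟩ := h p hp h1
    exact ⟨M, by omega, h3, h4⟩
  · obtain ⟨M, h2, h3, h4⟩ := balls_all f k p hp
    refine ⟨M, ?_, fun z hz => by rw [h3 z hz]; exact ⟨hk, le_rfl⟩, h4⟩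
    have h5 := rho_le_self f (p ^ k)
    have h6 : p ^ k ≤ T ^ k := Nat.pow_le_pow_left h1 k
    omega

/-- polynomials without multiple factors. -/
theorem balls_sep (f : ℤ[X]) (k : ℕ) (hk : 2 ≤ k)
    (hsq : Squarefree (f.map (Int.castRingHom ℚ))) : BallsP f k := by
  obtain ⟨D, hD⟩ := sep_rho_bound f k (by omega) hsq
  refine ⟨D, fun p hp => ?_⟩
  obtain ⟨M, h2, h3, h4⟩ := balls_all f k p hp
  exact ⟨M, h2.trans (hD p hp), fun z hz => by rw [h3 z hz]; exact ⟨hk, le_rfl⟩, h4⟩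

theorem not_dvd_of_natAbs_lt {p : ℕ} {R : ℤ} (hR : R ≠ 0) (h : R.natAbs < p) : ¬ (p : ℤ) ∣ R := by
  intro h5
  have h6 : p ∣ R.natAbs := Int.natCast_dvd.mp h5
  have h7 := Nat.le_of_dvd (Int.natAbs_pos.mpr hR) h6
  omega

/-- products of coprime factors. -/
theorem balls_split (f A B u v : ℤ[X]) (R c : ℤ) (hR : R ≠ 0) (hc : c ≠ 0)
    (hAB : A * B = C c * f) (hbez : u * A + v * B = C R) (k : ℕ) (hk : 2 ≤ k)
    (hA : BallsP A k) (hB : BallsP B k) : BallsP f k := by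
  classical
  obtain ⟨D1, h1⟩ := hA
  obtain ⟨D2, h2⟩ := hB
  refine balls_of_large f k hk (R.natAbs + c.natAbs) (D1 + D2) fun p hp hpT => ?_
  have hpp : Prime (p : ℤ) := Nat.prime_iff_prime_int.mp hp
  have hpR : ¬ (p : ℤ) ∣ R := not_dvd_of_natAbs_lt hR (by omega)
  have hpc : ¬ (p : ℤ) ∣ c := not_dvd_of_natAbs_lt hc (by omega)
  obtain ⟨M1, a1, a2, a3⟩ := h1 p hp
  obtain ⟨M2, b1, b2, b3⟩ := h2 p hp
  refine ⟨M1 ∪ M2, (Finset.card_union_le _ _).trans (by omega), ?_, fun n => ?_⟩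
  · intro z hz
    rcases Finset.mem_union.1 hz with hz | hz
    · exact a2 z hz
    · exact b2 z hz
  have e1 : A.eval (n : ℤ) * B.eval (n : ℤ) = c * f.eval (n : ℤ) := by
    have h3 := congrArg (Polynomial.eval (n : ℤ)) hAB
    simpa using h3
  have e2 : (p : ℤ) ^ k ∣ f.eval (n : ℤ) ↔
      (p : ℤ) ^ k ∣ A.eval (n : ℤ) ∨ (p : ℤ) ^ k ∣ B.eval (n : ℤ) := by
    constructor
    · intro hdvd
      have h1 : (p : ℤ) ^ k ∣ A.eval (n : ℤ) * B.eval (n : ℤ) := by
        rw [e1]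
        exact Dvd.dvd.mul_left hdvd c
      by_cases hA : (p : ℤ) ∣ A.eval (n : ℤ)
      · by_cases hB : (p : ℤ) ∣ B.eval (n : ℤ)
        · exfalso
          have h4 : (u * A + v * B).eval (n : ℤ) = R := by rw [hbez]; simp
          rw [eval_add, eval_mul, eval_mul] at h4
          apply hpR
          rw [← h4]
          exact dvd_add (Dvd.dvd.mul_left hA _) (Dvd.dvd.mul_left hB _)
        · exact Or.inl ((IsCoprime.pow_left
            ((Prime.coprime_iff_not_dvd hpp).mpr hB)).dvd_of_dvd_mul_right h1)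
      · exact Or.inr ((IsCoprime.pow_left
          ((Prime.coprime_iff_not_dvd hpp).mpr hA)).dvd_of_dvd_mul_left h1)
    · intro h
      have h3 : (p : ℤ) ^ k ∣ c * f.eval (n : ℤ) := by
        rw [← e1]
        rcases h with h | h
        · exact Dvd.dvd.mul_right h _
        · exact Dvd.dvd.mul_left h _
      exact (IsCoprime.pow_left
        ((Prime.coprime_iff_not_dvd hpp).mpr hpc)).dvd_of_dvd_mul_left h3
  rw [e2, a3, b3]
  constructor
  · rintro (⟨z, hz, h⟩ | ⟨z, hz, h⟩)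
    · exact ⟨z, Finset.mem_union_left _ hz, h⟩
    · exact ⟨z, Finset.mem_union_right _ hz, h⟩
  · rintro ⟨z, hz, h⟩
    rcases Finset.mem_union.1 hz with hz | hz
    · exact Or.inl ⟨z, hz, h⟩
    · exact Or.inr ⟨z, hz, h⟩

/-- divisibility of a power. -/
theorem dvd_pow_iff {p : ℕ} (hp : p.Prime) (k e : ℕ) (he : 1 ≤ e) (a : ℤ) :
    (p : ℤ) ^ k ∣ a ^ e ↔ (p : ℤ) ^ ⌈(k : ℚ) / e⌉₊ ∣ a := by
  have hpp : Prime (p : ℤ) := Nat.prime_iff_prime_int.mp hp
  have he0 : (0 : ℚ) < e := by exact_mod_cast he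
  constructor
  · intro h
    rcases eq_or_ne a 0 with rfl | ha
    · exact dvd_zero _
    have hfin : FiniteMultiplicity (p : ℤ) a :=
      Int.finiteMultiplicity_iff.2 ⟨by simpa using hp.one_lt.ne', ha⟩
    have h1 := le_emultiplicity_of_pow_dvd h
    rw [emultiplicity_pow hpp, hfin.emultiplicity_eq_multiplicity] at h1
    have h2 : k ≤ e * multiplicity (p : ℤ) a := by exact_mod_cast h1
    have h3 : ⌈(k : ℚ) / e⌉₊ ≤ multiplicity (p : ℤ) a := by
      rw [Nat.ceil_le, div_le_iff₀ he0]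
      have : (k : ℚ) ≤ e * multiplicity (p : ℤ) a := by exact_mod_cast h2
      linarith
    exact (pow_dvd_pow _ h3).trans (pow_multiplicity_dvd _ _)
  · intro h
    have h1 : k ≤ ⌈(k : ℚ) / e⌉₊ * e := by
      have h2 := Nat.le_ceil ((k : ℚ) / e)
      rw [div_le_iff₀ he0] at h2
      exact_mod_cast h2
    calc (p : ℤ) ^ k ∣ (p : ℤ) ^ (⌈(k : ℚ) / e⌉₊ * e) := pow_dvd_pow _ h1
      _ = ((p : ℤ) ^ ⌈(k : ℚ) / e⌉₊) ^ e := by rw [pow_mul]
      _ ∣ a ^ e := pow_dvd_pow_of_dvd h e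

theorem ceil_le_self (k e : ℕ) (he : 1 ≤ e) : ⌈(k : ℚ) / e⌉₊ ≤ k := by
  rw [Nat.ceil_le]
  refine div_le_self (by positivity) ?_
  exact_mod_cast he

theorem two_le_ceil (k e : ℕ) (he : 1 ≤ e) (hek : e < k) : 2 ≤ ⌈(k : ℚ) / e⌉₊ := by
  have : 1 < ⌈(k : ℚ) / e⌉₊ := by
    rw [Nat.lt_ceil]
    have he0 : (0 : ℚ) < e := by exact_mod_cast he
    rw [lt_div_iff₀ he0]
    push_cast
    rw [one_mul]
    exact_mod_cast hek
  omega

/-- powers. -/
theorem balls_pow (G : ℤ[X]) (k e : ℕ) (he : 1 ≤ e) (h : BallsP G ⌈(k : ℚ) / e⌉₊) :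
    BallsP (G ^ e) k := by
  obtain ⟨D, hD⟩ := h
  refine ⟨D, fun p hp => ?_⟩
  obtain ⟨M, h1, h2, h3⟩ := hD p hp
  refine ⟨M, h1, fun z hz => ⟨(h2 z hz).1, (h2 z hz).2.trans (ceil_le_self k e he)⟩, fun n => ?_⟩
  rw [eval_pow, dvd_pow_iff hp k e he, h3]

theorem tailPow_pow (G : ℤ[X]) (k e : ℕ) (he : 1 ≤ e) (h : TailPow G ⌈(k : ℚ) / e⌉₊) :
    TailPow (G ^ e) k := by
  classical
  obtain ⟨ε, δ, C, hε, hε1, hδ, hC, h⟩ := h
  refine ⟨ε, δ, C, hε, hε1, hδ, hC, fun X hX => le_trans (le_of_eq ?_) (h X hX)⟩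
  unfold tail2
  congr 1
  refine card_filter_eq _ _ _ fun n => ?_
  constructor
  · rintro ⟨p, hp, hXp, hd⟩
    rw [eval_pow, dvd_pow_iff hp k e he] at hd
    exact ⟨p, hp, hXp, hd⟩
  · rintro ⟨p, hp, hXp, hd⟩
    refine ⟨p, hp, hXp, ?_⟩
    rw [eval_pow, dvd_pow_iff hp k e he]
    exact hd

/-- nonzero constants. -/
theorem balls_const (f : ℤ[X]) (hf0 : f ≠ 0) (hd : f.natDegree = 0) (k : ℕ) (hk : 2 ≤ k) :
    BallsP f k := by
  obtain ⟨c, rfl⟩ : ∃ c, f = C c := ⟨f.coeff 0, eq_C_of_natDegree_eq_zero hd⟩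
  have hc : c ≠ 0 := by
    rintro rfl
    simp at hf0
  refine balls_of_large _ k hk c.natAbs 0 fun p hp hpT => ⟨∅, by simp, by simp, fun n => ?_⟩
  rw [eval_C]
  constructor
  · intro h
    exact absurd ((dvd_pow_self (p : ℤ) (by omega)).trans h) (not_dvd_of_natAbs_lt hc hpT)
  · rintro ⟨z, hz, -⟩
    exact absurd hz (Finset.notMem_empty z)

/-- the induction on the degree. -/
theorem goodW_ind (k : ℕ) (hk : 2 ≤ k) : ∀ (N : ℕ) (f : ℤ[X]), f.natDegree ≤ N → GoodW f k →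
    TailPow f k ∧ BallsP f k := by
  intro N
  induction N with
  | zero =>
    intro f hN hf
    exact ⟨tailPow_gt f hf.1 k (by omega), balls_const f hf.1 (by omega) k hk⟩
  | succ N ih =>
    intro f hN hf
    obtain ⟨hf0, hfac⟩ := hf
    have hinj : Function.Injective (Polynomial.map (Int.castRingHom ℚ)) :=
      Polynomial.map_injective _ (Int.cast_injective)
    have hdegmap : ∀ g : ℤ[X], (g.map (Int.castRingHom ℚ)).natDegree = g.natDegree := fun g =>
      natDegree_map_eq_of_injective (Int.cast_injective) g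
    have hm0 : f.map (Int.castRingHom ℚ) ≠ 0 := fun h => hf0 (hinj (by simpa using h))
    rcases Nat.eq_zero_or_pos f.natDegree with hd0 | hd0
    · exact ⟨tailPow_gt f hf0 k (by omega), balls_const f hf0 hd0 k hk⟩
    have hnu : ¬ IsUnit (f.map (Int.castRingHom ℚ)) := by
      intro h
      have h1 := natDegree_eq_zero_of_isUnit h
      rw [hdegmap] at h1
      omega
    obtain ⟨g, hg, hgd⟩ := WfDvdMonoid.exists_irreducible_factor hnu hm0
    have hfin : FiniteMultiplicity g (f.map (Int.castRingHom ℚ)) :=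
      FiniteMultiplicity.of_not_isUnit hg.not_isUnit hm0
    obtain ⟨b, hb, hgb⟩ := hfin.exists_eq_pow_mul_and_not_dvd
    set e := multiplicity g (f.map (Int.castRingHom ℚ)) with he
    have he1 : 1 ≤ e := by
      by_contra h
      have h0 : e = 0 := by omega
      rw [h0, pow_zero, one_mul] at hb
      exact hgb (hb ▸ hgd)
    have hg0 : g ≠ 0 := hg.ne_zero
    have hb0 : b ≠ 0 := by
      rintro rfl
      exact hgb (dvd_zero g)
    have hgdeg : 0 < g.natDegree := by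
      by_contra h
      have h0 : g.natDegree = 0 := by omega
      exact hg.not_isUnit (isUnit_iff_degree_eq_zero.2 (by rw [degree_eq_natDegree hg0, h0]; rfl))
    have hdeg : f.natDegree = e * g.natDegree + b.natDegree := by
      rw [← hdegmap f, hb, natDegree_mul (pow_ne_zero _ hg0) hb0, natDegree_pow]
    obtain ⟨hek, hrange⟩ := hfac g e hg he1 (by rw [hb]; exact dvd_mul_right _ _)
    have hcop : IsCoprime (g ^ e) b :=
      IsCoprime.pow_left ((Irreducible.coprime_iff_not_dvd hg).2 hgb)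
    obtain ⟨G, s, hs, hG⟩ := sv_normal g
    obtain ⟨B, t, ht, hB⟩ := sv_normal b
    have hsu : IsUnit (C (s : ℚ)) := isUnit_C.2 (isUnit_iff_ne_zero.2 (by exact_mod_cast hs))
    have htu : IsUnit (C (t : ℚ)) := isUnit_C.2 (isUnit_iff_ne_zero.2 (by exact_mod_cast ht))
    have hGg : Associated (G.map (Int.castRingHom ℚ)) g := by
      rw [hG]
      exact (associated_unit_mul_left g _ hsu)
    have hBb : Associated (B.map (Int.castRingHom ℚ)) b := by
      rw [hB]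
      exact (associated_unit_mul_left b _ htu)
    have hdG : G.natDegree = g.natDegree := by
      rw [← hdegmap G, hG, natDegree_mul hsu.ne_zero hg0]
      simp
    have hdB : B.natDegree = b.natDegree := by
      rw [← hdegmap B, hB, natDegree_mul htu.ne_zero hb0]
      simp
    have hGirr : Irreducible (G.map (Int.castRingHom ℚ)) := (hGg.irreducible_iff).2 hg
    have hB0 : B ≠ 0 := by
      rintro rfl
      rw [Polynomial.map_zero] at hBb
      exact hb0 (hBb.eq_zero_iff.1 rfl)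
    have hcopAB : IsCoprime ((G ^ e).map (Int.castRingHom ℚ)) (B.map (Int.castRingHom ℚ)) := by
      rw [Polynomial.map_pow, hG, mul_pow, hB]
      exact (isCoprime_mul_unit_left_left (hsu.pow e) _ _).2
        ((isCoprime_mul_unit_left_right htu _ _).2 hcop)
    obtain ⟨u, v, R, hR, hbez⟩ := int_bezout (G ^ e) B hcopAB
    have hABf : G ^ e * B = C (s ^ e * t) * f := by
      apply hinj
      simp only [Polynomial.map_mul, Polynomial.map_pow, Polynomial.map_C, hG, hB, hb]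
      simp only [eq_intCast, Int.cast_mul, Int.cast_pow, C_mul, C_pow]
      ring
    have h2 : 2 ≤ ⌈(k : ℚ) / e⌉₊ := two_le_ceil k e he1 hek
    have hTG : TailPow G ⌈(k : ℚ) / e⌉₊ :=
      tailPow_irrW G hGirr _ h2 (by rw [hdG]; exact hrange)
    have hBG : BallsP G ⌈(k : ℚ) / e⌉₊ := balls_sep G _ h2 hGirr.squarefree
    have hBW : GoodW B k := by
      refine ⟨hB0, fun h j hh hj hd => hfac h j hh hj ?_⟩
      rw [hb]
      exact (hd.trans hBb.dvd).trans (dvd_mul_left b _)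
    have hlt : B.natDegree ≤ N := by
      have : 0 < e * g.natDegree := Nat.mul_pos he1 hgdeg
      omega
    obtain ⟨hT, hBa⟩ := ih B hlt hBW
    exact ⟨tailPow_split f (G ^ e) B u v R (s ^ e * t) hR hABf hbez k
        (tailPow_pow G k e he1 hTG) hT,
      balls_split f (G ^ e) B u v R (s ^ e * t) hR (mul_ne_zero (pow_ne_zero _ hs) ht) hABf hbez
        k hk (balls_pow G k e he1 hBG) hBa⟩

end Vale.Agent.P018.H867R
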