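import Vale.Agent.P018.Bdl.B19

/-! # P018, H867R: `∑_{3 ≤ r < d} (4 / binom(2r, r-1))^(1/r) ≤ d/4 + (log d)^2/8 + 2/5`. -/

namespace Vale.Agent.P018.H867R

open Finset

/-- `16^n ≤ 4 n binom(2n, n)^2`. -/
theorem sixteen_pow (n : ℕ) (hn : 1 ≤ n) : 16 ^ n ≤ 4 * n * n.centralBinom ^ 2 := by
  induction n, hn using Nat.le_induction with
  | base => simp [Nat.centralBinom]
  | succ n hn ih =>
    have h1 := Nat.succ_mul_centralBinom_succ n
    -- `(n+1) cb(n+1) = 2 (2n+1) cb(n)`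
    have h2 : ((n + 1) * (n + 1).centralBinom) ^ 2 = (2 * (2 * n + 1) * n.centralBinom) ^ 2 := by
      rw [h1]
    have h3 : (n + 1) * 16 ^ (n + 1) ≤ (n + 1) * (4 * (n + 1) * (n + 1).centralBinom ^ 2) := by
      calc (n + 1) * 16 ^ (n + 1) = 16 * (n + 1) * 16 ^ n := by ring
        _ ≤ 16 * (n + 1) * (4 * n * n.centralBinom ^ 2) := Nat.mul_le_mul_left _ ih
        _ = (16 * (4 * n * (n + 1))) * n.centralBinom ^ 2 := by ring
        _ ≤ (16 * (2 * n + 1) ^ 2) * n.centralBinom ^ 2 := by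
            apply Nat.mul_le_mul_right
            apply Nat.mul_le_mul_left
            nlinarith
        _ = 4 * (2 * (2 * n + 1) * n.centralBinom) ^ 2 := by ring
        _ = 4 * ((n + 1) * (n + 1).centralBinom) ^ 2 := by rw [h2]
        _ = (n + 1) * (4 * (n + 1) * (n + 1).centralBinom ^ 2) := by ring
    exact Nat.le_of_mul_le_mul_left h3 (Nat.succ_pos n)

/-- the binomial coefficient. -/
noncomputable def cb (r : ℕ) : ℝ := ((2 * r).choose (r - 1) : ℕ)

theorem cb_pos (r : ℕ) : 0 < cb r := by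
  unfold cb
  exact_mod_cast Nat.choose_pos (by omega)

theorem cb_mul (r : ℕ) (hr : 1 ≤ r) : cb r * (r + 1) = (r.centralBinom : ℝ) * r := by
  have h2 : (2 * r).choose (r - 1) * (r + 1) = (2 * r).choose r * r := by
    have := Nat.choose_succ_right_eq (2 * r) (r - 1)
    rw [show r - 1 + 1 = r by omega, show 2 * r - (r - 1) = r + 1 by omega] at this
    exact this.symm
  unfold cb
  rw [Nat.centralBinom]
  exact_mod_cast h2

/-- `4^r r ≤ 2 √r (r+1) binom(2r, r-1)`. -/
theorem cb_lower (r : ℕ) (hr : 1 ≤ r) : (4 : ℝ) ^ r * r ≤ 2 * Real.sqrt r * ((r + 1) * cb r) := by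
  have hr0 : (0 : ℝ) < r := by exact_mod_cast hr
  have h1 : ((16 : ℝ)) ^ r ≤ 4 * r * (r.centralBinom : ℝ) ^ 2 := by
    exact_mod_cast sixteen_pow r hr
  have h2 := cb_mul r hr
  have h3 : ((4 : ℝ) ^ r * r) ^ 2 ≤ (2 * Real.sqrt r * ((r + 1) * cb r)) ^ 2 := by
    calc ((4 : ℝ) ^ r * r) ^ 2 = 16 ^ r * (r : ℝ) ^ 2 := by
          rw [mul_pow, ← pow_mul, mul_comm r 2, pow_mul]
          norm_num
      _ ≤ 4 * r * (r.centralBinom : ℝ) ^ 2 * (r : ℝ) ^ 2 :=
          mul_le_mul_of_nonneg_right h1 (sq_nonneg _)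
      _ = 4 * r * ((r.centralBinom : ℝ) * r) ^ 2 := by ring
      _ = 4 * r * (cb r * (r + 1)) ^ 2 := by rw [h2]
      _ = 4 * (Real.sqrt r) ^ 2 * (cb r * (r + 1)) ^ 2 := by rw [Real.sq_sqrt hr0.le]
      _ = (2 * Real.sqrt r * ((r + 1) * cb r)) ^ 2 := by ring
  have hcb := cb_pos r
  exact (pow_le_pow_iff_left₀ (by positivity) (by positivity) (by norm_num)).1 h3

/-- the numbers to be added. -/
noncomputable def u (r : ℕ) : ℝ := (4 / cb r) ^ (1 / (r : ℝ))

theorem u_pos (r : ℕ) : 0 < u r := by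
  have := cb_pos r
  unfold u
  positivity

theorem u_pow (r : ℕ) (hr : 1 ≤ r) : u r ^ r = 4 / cb r := by
  have := cb_pos r
  have hr0 : (r : ℝ) ≠ 0 := by exact_mod_cast (show r ≠ 0 by omega)
  unfold u
  rw [← Real.rpow_natCast, ← Real.rpow_mul (by positivity), one_div_mul_cancel hr0, Real.rpow_one]

theorem u_le_of_pow (r : ℕ) (hr : 1 ≤ r) (q : ℝ) (hq : 0 ≤ q) (h : 4 ≤ q ^ r * cb r) : u r ≤ q := by
  have h1 : u r ^ r ≤ q ^ r := by
    rw [u_pow r hr, div_le_iff₀ (cb_pos r)]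
    exact h
  exact (pow_le_pow_iff_left₀ (u_pos r).le hq (by omega)).1 h1

/-- the bound for large `r`. -/
theorem u_le (r : ℕ) (hr : 1 ≤ r) (x : ℝ) (hx0 : 0 ≤ x) (hx1 : x ≤ 1)
    (hx : Real.log 8 + Real.log r / 2 + 1 / r ≤ x * r) : u r ≤ 1 / 4 * (1 + x + x ^ 2) := by
  have hr0 : (0 : ℝ) < r := by exact_mod_cast hr
  have hcb := cb_pos r
  refine u_le_of_pow r hr _ (by positivity) ?_
  have h1 : Real.exp x ≤ 1 + x + x ^ 2 := by
    have := Real.abs_exp_sub_one_sub_id_le (x := x) (by rw [abs_of_nonneg hx0]; exact hx1)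
    rw [abs_le] at this
    linarith only [this.2]
  have h2 : 8 * Real.sqrt r * (1 + 1 / r) ≤ Real.exp x ^ r := by
    rw [← Real.exp_nat_mul, mul_comm (r : ℝ) x]
    refine le_trans ?_ (Real.exp_le_exp.2 hx)
    rw [Real.exp_add, Real.exp_add, Real.exp_log (by norm_num)]
    have e1 : Real.exp (Real.log r / 2) = Real.sqrt r := by
      rw [Real.sqrt_eq_rpow, Real.rpow_def_of_pos hr0]
      congr 1
      ring
    rw [e1]
    have e2 : 1 + 1 / (r : ℝ) ≤ Real.exp (1 / r) := by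
      have := Real.add_one_le_exp (1 / (r : ℝ))
      linarith only [this]
    exact mul_le_mul_of_nonneg_left e2 (by positivity)
  have h3 : 8 * Real.sqrt r * (1 + 1 / r) ≤ (1 + x + x ^ 2) ^ r :=
    h2.trans (pow_le_pow_left₀ (Real.exp_pos _).le h1 r)
  have h4 := cb_lower r hr
  have h5 : (4 : ℝ) ^ r * 4 ≤ (1 + x + x ^ 2) ^ r * cb r := by
    have h6 : (4 : ℝ) ^ r * 4 * r ≤ (1 + x + x ^ 2) ^ r * cb r * r := by
      calc (4 : ℝ) ^ r * 4 * r = 4 * (4 ^ r * r) := by ring
        _ ≤ 4 * (2 * Real.sqrt r * ((r + 1) * cb r)) := mul_le_mul_of_nonneg_left h4 (by norm_num)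
        _ = (8 * Real.sqrt r * (1 + 1 / r)) * (cb r * r) := by
            field_simp
            ring
        _ ≤ (1 + x + x ^ 2) ^ r * (cb r * r) := mul_le_mul_of_nonneg_right h3 (by positivity)
        _ = _ := by ring
    exact le_of_mul_le_mul_right h6 hr0
  rw [mul_pow, one_div, inv_pow, mul_assoc, inv_mul_eq_div, le_div_iff₀ (by positivity)]
  linarith only [h5]

/-- one step. -/
theorem u_step (r : ℕ) (hr : 128 ≤ r) :
    u r ≤ 1 / 4 + (Real.log ((r : ℝ) + 1) ^ 2 - Real.log r ^ 2) / 8 := by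
  have hr' : (128 : ℝ) ≤ r := by exact_mod_cast hr
  have hr0 : (0 : ℝ) < r := by linarith only [hr']
  have hl2 := Real.log_two_gt_d9
  have hl2' := Real.log_two_lt_d9
  have h8 : Real.log 8 = 3 * Real.log 2 := by
    rw [show (8 : ℝ) = 2 ^ 3 by norm_num, Real.log_pow]
    norm_num
  have h128 : Real.log 128 = 7 * Real.log 2 := by
    rw [show (128 : ℝ) = 2 ^ 7 by norm_num, Real.log_pow]
    norm_num
  obtain ⟨L, hL⟩ : ∃ L, L = Real.log r := ⟨_, rfl⟩
  have hL1 : 4.852 ≤ L := by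
    have : Real.log 128 ≤ Real.log r := Real.log_le_log (by norm_num) hr'
    rw [hL]
    linarith only [this, h128, hl2]
  have hL2 : L ≤ 0.038 * r := by
    have h1 : Real.log (r / 128) ≤ r / 128 - 1 := Real.log_le_sub_one_of_pos (by positivity)
    rw [Real.log_div hr0.ne' (by norm_num), h128] at h1
    rw [hL]
    linarith only [h1, hl2', hr']
  have hinv : 1 / (r : ℝ) ≤ 1 / 128 := one_div_le_one_div_of_le (by norm_num) hr'
  have hinv0 : 0 < 1 / (r : ℝ) := by positivity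
  obtain ⟨z, hz⟩ : ∃ z, z = Real.log 8 + L / 2 + 1 / (r : ℝ) := ⟨_, rfl⟩
  have hz0 : 0 < z := by rw [hz, h8]; linarith only [hL1, hinv0, hl2]
  have hz1 : z ≤ 2.0874 + L / 2 := by rw [hz, h8]; linarith only [hinv, hl2']
  have hzr : z ≤ 0.0354 * r := by linarith only [hz1, hL2, hr']
  obtain ⟨x, hx⟩ : ∃ x, x = z / r := ⟨_, rfl⟩
  have hx0 : 0 ≤ x := by rw [hx]; positivity
  have hx1 : x ≤ 0.0354 := by rw [hx, div_le_iff₀ hr0]; exact hzr
  have hxr : x * r = z := by rw [hx]; field_simp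
  have h1 := u_le r (by omega) x hx0 (by linarith only [hx1]) (by rw [hxr, hz, hL])
  -- the difference of the squares of the logarithms
  have h2 : 1 / ((r : ℝ) + 1) ≤ Real.log ((r : ℝ) + 1) - L := by
    have e1 := Real.one_sub_inv_le_log_of_pos (x := ((r : ℝ) + 1) / r) (by positivity)
    rw [Real.log_div (by positivity) hr0.ne', ← hL] at e1
    refine le_trans (le_of_eq ?_) e1
    field_simp
    ring
  have h3 : 2 * L * (1 / ((r : ℝ) + 1)) ≤ Real.log ((r : ℝ) + 1) ^ 2 - L ^ 2 := by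
    have e1 : Real.log ((r : ℝ) + 1) ^ 2 - L ^ 2 =
        (Real.log ((r : ℝ) + 1) - L) * (Real.log ((r : ℝ) + 1) + L) := by ring
    have e2 : 0 < 1 / ((r : ℝ) + 1) := by positivity
    have e3 : L ≤ Real.log ((r : ℝ) + 1) := by linarith only [h2, e2]
    rw [e1]
    calc 2 * L * (1 / ((r : ℝ) + 1)) = (1 / ((r : ℝ) + 1)) * (2 * L) := by ring
      _ ≤ (Real.log ((r : ℝ) + 1) - L) * (Real.log ((r : ℝ) + 1) + L) :=
          mul_le_mul h2 (by linarith only [e3]) (by linarith only [hL1]) (by linarith only [h2, e2])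
  have h4 : x + x ^ 2 ≤ L * (1 / ((r : ℝ) + 1)) := by
    rw [mul_one_div, le_div_iff₀ (by positivity)]
    have e1 : (x + x ^ 2) * ((r : ℝ) + 1) = z * ((1 + x) * (1 + 1 / r)) := by
      rw [← hxr]
      field_simp
    rw [e1]
    have e2 : (1 + x) * (1 + 1 / (r : ℝ)) ≤ 1.0435 := by
      calc (1 + x) * (1 + 1 / (r : ℝ)) ≤ (1 + 0.0354) * (1 + 1 / 128) :=
            mul_le_mul (by linarith only [hx1]) (by linarith only [hinv])
              (by linarith only [hinv0]) (by norm_num)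
        _ ≤ 1.0435 := by norm_num
    calc z * ((1 + x) * (1 + 1 / r)) ≤ (2.0874 + L / 2) * 1.0435 :=
          mul_le_mul hz1 e2 (by positivity) (by linarith only [hL1])
      _ ≤ L := by linarith only [hL1]
  rw [← hL]
  linarith only [h1, h3, h4]

/-- `10^5` times upper bounds of `u r` for `r = 3, ..., 127`. -/
def cs : List ℕ := [64366, 51698, 45287, 41422, 38835, 36979, 35582, 34490, 33612, 32891, 32287, 31773, 31331, 30946, 30607, 30307, 30039, 29799, 29582, 29384, 29204, 29039, 28887, 28747, 28617, 28496, 28383, 28278, 28180, 28088, 28001, 27919, 27842, 27769, 27700, 27635, 27572, 27513, 27457, 27403, 27352, 27303, 27256, 27211, 27168, 27126, 27087, 27049, 27012, 26977, 26942, 26910, 26878, 26847, 26818, 26789, 26762, 26735, 26709, 26684, 26660, 26636, 26613, 26591, 26569, 26548, 26528, 26508, 26489, 26470, 26452, 26434, 26417, 26400, 26383, 26367, 26351, 26336, 26321, 26307, 26292, 26278, 26265, 26251, 26238, 26226, 26213, 26201, 26189,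 26177, 26166, 26155, 26144, 26133, 26122, 26112, 26102, 26092, 26082, 26072, 26063, 26054, 26045, 26036, 26027, 26018, 26010, 26002, 25993, 25985, 25978, 25970, 25962, 25955, 25947, 25940, 25933, 25926, 25919, 25912, 25905, 25899, 25892, 25886, 25880]

theorem cs_ok : ∀ i < 125, 4 * 100000 ^ (i + 3) * ((i + 2).factorial * (i + 4).factorial) ≤
    (cs.getD i 0) ^ (i + 3) * (2 * (i + 3)).factorial := by
  decide +kernel

theorem cs_sum : ∑ i ∈ range 125, cs.getD i 0 ≤ 3530000 := by decide +kernel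

theorem u_le_cs (i : ℕ) (hi : i < 125) : u (3 + i) ≤ (cs.getD i 0 : ℝ) / 100000 := by
  refine u_le_of_pow _ (by omega) _ (by positivity) ?_
  have h1 := cs_ok i hi
  have h2 : (2 * (3 + i)).choose (3 + i - 1) * ((i + 2).factorial * (i + 4).factorial) =
      (2 * (i + 3)).factorial := by
    have := Nat.choose_mul_factorial_mul_factorial (n := 2 * (3 + i)) (k := 3 + i - 1) (by omega)
    rw [show 2 * (3 + i) - (3 + i - 1) = i + 4 by omega, show 3 + i - 1 = i + 2 by omega,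
      show 2 * (3 + i) = 2 * (i + 3) by ring, mul_assoc] at this
    rw [show 2 * (3 + i) = 2 * (i + 3) by ring, show 3 + i - 1 = i + 2 by omega]
    exact this
  have h3 : 4 * 100000 ^ (i + 3) ≤ (cs.getD i 0) ^ (i + 3) * (2 * (3 + i)).choose (3 + i - 1) := by
    have h4 : 4 * 100000 ^ (i + 3) * ((i + 2).factorial * (i + 4).factorial) ≤
        (cs.getD i 0) ^ (i + 3) * (2 * (3 + i)).choose (3 + i - 1) *
          ((i + 2).factorial * (i + 4).factorial) := by
      rw [mul_assoc ((cs.getD i 0) ^ (i + 3)), h2]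
      exact h1
    exact Nat.le_of_mul_le_mul_right h4 (by positivity)
  have h5 : (4 : ℝ) * 100000 ^ (i + 3) ≤ (cs.getD i 0 : ℝ) ^ (i + 3) * cb (3 + i) := by
    unfold cb
    exact_mod_cast h3
  rw [div_pow, div_mul_eq_mul_div, le_div_iff₀ (by positivity), add_comm 3 i]
  rw [add_comm 3 i] at h5
  exact h5

/-- the sum. -/
theorem sum_u (d : ℕ) (hd : 128 ≤ d) :
    ∑ r ∈ Ico 3 d, u r ≤ (d : ℝ) / 4 + Real.log d ^ 2 / 8 + 2 / 5 := by
  induction d, hd using Nat.le_induction with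
  | base =>
    have h1 : ∑ r ∈ Ico 3 128, u r ≤ 35.3 := by
      rw [Finset.sum_Ico_eq_sum_range]
      calc ∑ i ∈ range (128 - 3), u (3 + i) ≤ ∑ i ∈ range 125, (cs.getD i 0 : ℝ) / 100000 :=
            sum_le_sum fun i hi => u_le_cs i (mem_range.1 hi)
        _ = ((∑ i ∈ range 125, cs.getD i 0 : ℕ) : ℝ) / 100000 := by
            rw [← Finset.sum_div]
            push_cast
            rfl
        _ ≤ (3530000 : ℕ) / 100000 := by
            apply div_le_div_of_nonneg_right _ (by norm_num)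
            exact_mod_cast cs_sum
        _ ≤ 35.3 := by norm_num
    have hl2 := Real.log_two_gt_d9
    have h128 : Real.log (128 : ℝ) = 7 * Real.log 2 := by
      rw [show (128 : ℝ) = 2 ^ 7 by norm_num, Real.log_pow]
      norm_num
    have h2 : 4.85 ≤ Real.log (128 : ℝ) := by linarith only [h128, hl2]
    have h3 : (4.85 : ℝ) ^ 2 ≤ Real.log (128 : ℝ) ^ 2 := pow_le_pow_left₀ (by norm_num) h2 2
    push_cast
    norm_num at h3 ⊢
    linarith only [h1, h3]
  | succ d hd ih =>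
    rw [Finset.sum_Ico_succ_top (by omega)]
    have h1 := u_step d hd
    push_cast
    linarith only [h1, ih]

end Vale.Agent.P018.H867R
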